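import Vale.Agent.P141.H8.Cell

/-!
# P141, line W, module REC (one-cell recursion), part 2: windows of a region
-/

namespace Vale.Agent.P141.H8

open Finset
open Vale.Agent.P141.H315 Vale.Agent.P141.PL.H318 Vale.Agent.P141.H347 Vale.Agent.P141.H297

noncomputable section

open scoped Classical

variable {X ι α : Type*} {g : Grid X}

/-- labels: `tp k x` is the scale of the top of the window of the cell `(k, x)` -/
structure Lab (g : Grid X) (L : ℕ) (tp : ℕ → X → ℕ) : Prop where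
  const : ∀ k ≤ L, ∀ x y, y ∈ g.cube k x → tp k y = tp k x
  ge : ∀ k ≤ L, ∀ x, k ≤ tp k x
  le : ∀ k ≤ L, ∀ x, tp k x ≤ L
  btw : ∀ k ≤ L, ∀ x i, k ≤ i → i ≤ tp k x → tp i x = tp k x

/-- the region of the window with the top cell `(Λ, z)` -/
def Wr (g : Grid X) (ud : ℕ → X → Prop) (tp : ℕ → X → ℕ) (Λ : ℕ) (z : X) : ℕ → X → Prop :=
  fun k y => ud k y ∧ k ≤ Λ ∧ y ∈ g.cube Λ z ∧ tp k y = Λ

theorem Rgn.win {gd ud : ℕ → X → Prop} {L : ℕ} {x : X} {tp : ℕ → X → ℕ}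
    (h : Rgn g gd L x ud) (hl : Lab g L tp) {Λ : ℕ} (hΛ : Λ ≤ L) (z : X) :
    Rgn g gd Λ z (Wr g ud tp Λ z) where
  const k y y' hy' := by
    unfold Wr
    constructor
    · rintro ⟨h1, h2, h3, h4⟩
      have h5 : y ∈ g.cube k y' := by rw [g.eq_of_mem k y y' hy']; exact g.mem k y
      refine ⟨(h.const k y y' hy').1 h1, h2, ?_, ?_⟩
      · exact g.cube_subset h2 h3 h5
      · rw [hl.const k (h2.trans hΛ) y' y h5]; exact h4
    · rintro ⟨h1, h2, h3, h4⟩
      refine ⟨(h.const k y y' hy').2 h1, h2, ?_, ?_⟩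
      · exact g.cube_subset h2 h3 hy'
      · rw [hl.const k (h2.trans hΛ) y y' hy']; exact h4
  up k hk y := by
    rintro ⟨h1, h2, h3, h4⟩
    refine ⟨h.up k (by omega) y h1, hk, h3, ?_⟩
    rw [hl.btw k (by omega) y (k + 1) (by omega) (by omega), h4]
  bel k y := fun ⟨_, h2, h3, _⟩ => ⟨h2, h3⟩
  sub k y := fun ⟨h1, _, _, _⟩ => h.sub k y h1

/-- the labels of `H297` -/
theorem lab_tp {J : Type*} [Fintype J] {S : J → CSys g ι} (w : ∀ j, LW (S j)) (L : ℕ)
    (gd : ℕ → X → Prop) (V H : J → ℕ → X → ℝ) (rs : J → ℕ → X → Prop) (e' C2 : ℝ) :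
    Lab g L (tp w L gd V H rs e' C2) where
  const k hk _ _ hy := tp_const w L gd V H rs e' C2 hk hy
  ge k hk x := le_tp w L gd V H rs e' C2 hk x
  le k hk x := tp_le w L gd V H rs e' C2 hk x
  btw k hk _ _ h1 h2 := tp_between w L gd V H rs e' C2 hk h1 h2

/-- the packing of the tops of the windows of a region -/
def tops (g : Grid X) (ud : ℕ → X → Prop) (tp : ℕ → X → ℕ) (L : ℕ) (x : X) : ℝ :=
  ∑ i ∈ range (L + 1), ∑ z ∈ g.cube L x, if ud i z ∧ tp i z = i then (1 : ℝ) else 0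

end

end Vale.Agent.P141.H8
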