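import Vale.Agent.P141.H8.Rec

/-!
# P141, line W, module REC (one-cell recursion), part 5: the numbers of the rounds

Energies `ee i = E (K1 τ) ^ i`, thresholds `τ · ee i`, `τ = t ^ c`; packing `KK i`.
-/

namespace Vale.Agent.P141.H8

open Finset
open Vale.Agent.P141.H315 Vale.Agent.P141.PL.H318 Vale.Agent.P141.H347 Vale.Agent.P141.H297

noncomputable section

open scoped Classical

/-- the energies -/
def ee (B Cg τ E : ℝ) (i : ℕ) : ℝ := E * (K1 B Cg * τ) ^ i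

/-- the packing constants -/
def KK (B Cg τ E : ℝ) : ℕ → ℝ
  | 0 => 1
  | i + 1 => (KK B Cg τ E i + 1) * K2 B (ee B Cg τ E i) (τ * ee B Cg τ E i)

/-- the constant of one round -/
def MM (B : ℝ) : ℝ := 4 * (2 + 133 * B)

variable {B Cg τ E : ℝ}

theorem K1_ge (hB : 0 ≤ B) (hC : 0 ≤ Cg) : 1 ≤ K1 B Cg := by
  unfold K1
  have h1 : 0 ≤ B * (8 * (1 + 2 * Cg)) := by positivity
  linarith

theorem MM_ge (hB : 0 ≤ B) : 1 ≤ MM B := by unfold MM; linarith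

theorem ee_pos (hB : 0 ≤ B) (hC : 0 ≤ Cg) (hτ : 0 < τ) (hE : 0 < E) (i : ℕ) :
    0 < ee B Cg τ E i := by
  have := K1_ge hB hC
  unfold ee; positivity

theorem ee_succ (i : ℕ) : ee B Cg τ E (i + 1) = K1 B Cg * (τ * ee B Cg τ E i) := by
  unfold ee; rw [pow_succ]; ring

theorem KK_ge (hB : 0 ≤ B) (hC : 0 ≤ Cg) (hτ : 0 < τ) (hE : 0 < E) (i : ℕ) :
    1 ≤ KK B Cg τ E i := by
  induction i with
  | zero => exact le_rfl
  | succ i ih =>
    have h0 := ee_pos hB hC hτ hE i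
    have h1 : 1 ≤ K2 B (ee B Cg τ E i) (τ * ee B Cg τ E i) := by
      have : 0 ≤ ee B Cg τ E i / (τ * ee B Cg τ E i) := by positivity
      unfold K2
      have : 0 ≤ 128 * B * (ee B Cg τ E i / (τ * ee B Cg τ E i)) := by positivity
      linarith
    change 1 ≤ (KK B Cg τ E i + 1) * K2 B (ee B Cg τ E i) (τ * ee B Cg τ E i)
    nlinarith

theorem KK_le (hB : 0 ≤ B) (hC : 0 ≤ Cg) (hτ : 0 < τ) (hτ1 : τ ≤ 1) (hE : 0 < E) (i : ℕ) :
    KK B Cg τ E i ≤ (MM B / τ) ^ i := by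
  induction i with
  | zero => exact le_rfl
  | succ i ih =>
    have h0 := ee_pos hB hC hτ hE i
    have hk := KK_ge hB hC hτ hE i
    have h1 : K2 B (ee B Cg τ E i) (τ * ee B Cg τ E i) = 2 * (2 + B + 4 * B + 128 * B * (1 / τ)) := by
      unfold K2
      congr 3
      field_simp
    have h2 : 1 ≤ 1 / τ := by rw [le_div_iff₀ hτ]; linarith
    have h3 : K2 B (ee B Cg τ E i) (τ * ee B Cg τ E i) ≤ MM B / 2 / τ := by
      rw [h1]
      have : MM B / 2 / τ = 2 * (2 + 133 * B) * (1 / τ) := by unfold MM; ring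
      rw [this]
      nlinarith
    have h4 : KK B Cg τ E i + 1 ≤ 2 * KK B Cg τ E i := by linarith
    have h5 : 0 ≤ MM B / 2 / τ := by have := MM_ge hB; positivity
    change (KK B Cg τ E i + 1) * K2 B (ee B Cg τ E i) (τ * ee B Cg τ E i) ≤ _
    calc (KK B Cg τ E i + 1) * K2 B (ee B Cg τ E i) (τ * ee B Cg τ E i)
        ≤ (2 * KK B Cg τ E i) * (MM B / 2 / τ) := by
          refine mul_le_mul h4 h3 ?_ (by linarith)
          rw [h1]; positivity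
      _ = KK B Cg τ E i * (MM B / τ) := by ring
      _ ≤ (MM B / τ) ^ i * (MM B / τ) := mul_le_mul_of_nonneg_right ih
          (by have := MM_ge hB; positivity)
      _ = (MM B / τ) ^ (i + 1) := by rw [pow_succ]

theorem ee_KK (hB : 0 ≤ B) (hC : 0 ≤ Cg) (hτ : 0 < τ) (hτ1 : τ ≤ 1) (hE : 0 < E) (i : ℕ) :
    ee B Cg τ E i * KK B Cg τ E i ≤ E * (K1 B Cg * MM B) ^ i := by
  have h0 := ee_pos hB hC hτ hE i
  refine (mul_le_mul_of_nonneg_left (KK_le hB hC hτ hτ1 hE i) h0.le).trans (le_of_eq ?_)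
  unfold ee
  rw [mul_assoc, ← mul_pow]
  congr 2
  field_simp

theorem ee_KK_succ (hB : 0 ≤ B) (hC : 0 ≤ Cg) (hτ : 0 < τ) (hτ1 : τ ≤ 1) (hE : 0 < E) (i : ℕ) :
    ee B Cg τ E i * KK B Cg τ E (i + 1) ≤ E * (K1 B Cg * MM B) ^ i * (MM B / τ) := by
  have h0 := ee_pos hB hC hτ hE i
  have h1 := K1_ge hB hC
  have h2 := MM_ge hB
  refine (mul_le_mul_of_nonneg_left (KK_le hB hC hτ hτ1 hE (i + 1)) h0.le).trans (le_of_eq ?_)
  unfold ee
  rw [pow_succ, ← mul_assoc, mul_assoc E, ← mul_pow]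
  congr 3
  field_simp

/-- the sum of the payments -/
theorem pay_sum (hB : 0 ≤ B) (hC : 0 ≤ Cg) (hτ : 0 < τ) (hτ1 : τ ≤ 1) (hE : 0 < E) {n : ℕ}
    {p q r : ℕ → ℝ} {Pm Qm : ℝ} (hPm : 0 ≤ Pm) (hQm : 0 ≤ Qm)
    (hp : ∀ i < n, p i ≤ Pm) (hq : ∀ i < n, q i + r i ≤ Qm * ee B Cg τ E i) :
    ∑ i ∈ range n, (32 * ee B Cg τ E i * p i + 2 * (q i + r i)) * KK B Cg τ E (i + 1) ≤
      (32 * Pm + 2 * Qm) * (n * (E * (K1 B Cg * MM B) ^ n * (MM B / τ))) := by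
  have h1 := K1_ge hB hC
  have h2 := MM_ge hB
  have key : ∀ i ∈ range n, (32 * ee B Cg τ E i * p i + 2 * (q i + r i)) * KK B Cg τ E (i + 1) ≤
      (32 * Pm + 2 * Qm) * (E * (K1 B Cg * MM B) ^ n * (MM B / τ)) := by
    intro i hi
    rw [mem_range] at hi
    have h0 := ee_pos hB hC hτ hE i
    have hk := KK_ge hB hC hτ hE (i + 1)
    have h3 := ee_KK_succ hB hC hτ hτ1 hE i
    have h4 : E * (K1 B Cg * MM B) ^ i * (MM B / τ) ≤ E * (K1 B Cg * MM B) ^ n * (MM B / τ) := by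
      refine mul_le_mul_of_nonneg_right (mul_le_mul_of_nonneg_left ?_ hE.le) (by positivity)
      exact pow_le_pow_right₀ (by nlinarith) hi.le
    have h5 : 32 * ee B Cg τ E i * p i + 2 * (q i + r i) ≤
        (32 * Pm + 2 * Qm) * ee B Cg τ E i := by
      have := mul_le_mul_of_nonneg_left (hp i hi) (by positivity : 0 ≤ 32 * ee B Cg τ E i)
      have := hq i hi
      nlinarith
    calc _ ≤ (32 * Pm + 2 * Qm) * ee B Cg τ E i * KK B Cg τ E (i + 1) :=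
          mul_le_mul_of_nonneg_right h5 (by linarith)
      _ = (32 * Pm + 2 * Qm) * (ee B Cg τ E i * KK B Cg τ E (i + 1)) := by ring
      _ ≤ _ := mul_le_mul_of_nonneg_left (h3.trans h4) (by positivity)
  refine (sum_le_sum key).trans (le_of_eq ?_)
  rw [sum_const, card_range, nsmul_eq_mul]
  ring

variable {X ι α : Type*} {g : Grid X} {nv : NV g α} {gd : ℕ → X → Prop} {GP G1 : X → ℝ}
  {P : ℕ → X → ℝ}

/-- **The recursion with its numbers**: `n` rounds with the ratio `τ`, start energy `E`. -/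
theorem rec_num {S : ℕ → Fin 2 → CSys g ι} {w : ∀ i j, LW (S i j)} (hC : 0 ≤ Cg)
    (hB : ∀ k x, cd g (k + 1) x ≤ B * cd g k x) {n : ℕ}
    (hM : ∀ i < n, ∀ j, Mix (S i j) Cg) (hτ : 0 < τ) (hτ1 : τ ≤ 1) (hE : 0 < E)
    {p q r : ℕ → ℝ} {Pm Qm : ℝ} (hPm : 0 ≤ Pm) (hQm : 0 ≤ Qm)
    (hp0 : ∀ i < n, 0 ≤ p i) (hq0 : ∀ i < n, 0 ≤ q i) (hr0 : ∀ i < n, 0 ≤ r i)
    (hp : ∀ i < n, p i ≤ Pm) (hq : ∀ i < n, q i + r i ≤ Qm * ee B Cg τ E i)
    (hR : ∀ i < n, Rnd nv gd GP G1 P (S i) (w i) (K1 B Cg * ee B Cg τ E i) Cg (p i) (q i) (r i))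
    {L : ℕ} {x : X} {ud : ℕ → X → Prop} (hU : Rgn g gd L x ud) (hx : ud L x)
    {F G : X → ℝ} (hF : En g ud F E) (hG : En g ud G E) :
    ∃ (t' : ℕ → X → ℕ) (F' : Fin 2 → ℕ → X → ℝ) (K : ℝ),
      Fam2 g ud L t' F' (E * (K1 B Cg * τ) ^ n) K ∧ 1 ≤ K ∧
      E * (K1 B Cg * τ) ^ n * K ≤ E * (K1 B Cg * MM B) ^ n ∧
      T4 nv ud (st GP) (st G1) (st F) (st G) ≤
        (32 * Pm + 2 * Qm) * (n * (E * (K1 B Cg * MM B) ^ n * (MM B / τ))) * cd g L x +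
        T4 nv ud (st GP) (st G1) (mv t' (F' 0)) (mv t' (F' 1)) := by
  have hB0 : 0 ≤ B := by
    have h1 := hB L x
    have h2 := H347.cd_pos g L x
    have h3 := H347.cd_pos g (L + 1) x
    by_contra hn
    push Not at hn
    nlinarith
  have h0 : ee B Cg τ E 0 = E := by unfold ee; rw [pow_zero, mul_one]
  obtain ⟨t', F', h1, h2⟩ := rounds_static (e := ee B Cg τ E)
    (e' := fun i => τ * ee B Cg τ E i) (K := KK B Cg τ E) (n := n) hC hB hM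
    (fun i _ => mul_pos hτ (ee_pos hB0 hC hτ hE i))
    (fun i _ => by have := ee_pos hB0 hC hτ hE i; nlinarith)
    (fun i _ => ee_succ i) rfl (fun i _ => rfl) hp0 hq0 hr0 hR hU hx
    (by rw [h0]; exact hF) (by rw [h0]; exact hG)
  refine ⟨t', F', KK B Cg τ E n, h1, KK_ge hB0 hC hτ hE n, ee_KK hB0 hC hτ hτ1 hE n, ?_⟩
  refine h2.trans (add_le_add ?_ le_rfl)
  exact mul_le_mul_of_nonneg_right (pay_sum hB0 hC hτ hτ1 hE hPm hQm hp hq)
    (H347.cd_pos g L x).le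

end

end Vale.Agent.P141.H8
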