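import Vale.Agent.P141.H8.Lab
import Vale.Agent.P141.H297.Win7

/-!
# P141, line W, module REC (one-cell recursion): the births alive at a used cell pay
-/

namespace Vale.Agent.P141.H8

open Finset
open Vale.Agent.P141.H315 Vale.Agent.P141.PL.H318 Vale.Agent.P141.H347 Vale.Agent.P141.H297

noncomputable section

open scoped Classical

variable {X ι α : Type*} {g : Grid X} {nv : NV g α}

variable {S : CSys g ι} {w : LW S} {L : ℕ} {e : ℝ} {F : X → ℝ} {gd : ℕ → X → Prop}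
  {V H : ℕ → X → ℝ} {rs : ℕ → X → Prop} {lm : ℕ → X → ℝ}

/-- the index set of the atoms alive at the cell `(L', x')` -/
def ix (S : CSys g ι) (H : ℕ → X → ℝ) (rs : ℕ → X → Prop) (L' L : ℕ) (x' : X) :
    Finset (Σ _ : ℕ, ι) :=
  ((Ico L' (L + 1)).filter fun j => Alv rs L' j x').sigma
    fun j => (bm S j (H j) (g.cube j x')).support

theorem alive_atoms (hP : Pth w L e F gd V H rs lm)
    (hc : ∀ k x y, y ∈ g.cube k x → (gd k y ↔ gd k x)) (hu : ∀ k < L, ∀ x, gd k x → gd (k + 1) x)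
    {L' : ℕ} {x' : X} (hL : L' ≤ L) (hg : gd L' x') {y : X} (hy : y ∈ g.cube L' x') :
    F y - V L' y = (∑ i ∈ ix S H rs L' L x', bm S i.1 (H i.1) (g.cube i.1 x') i.2 • S.a i.1 i.2) y := by
  rw [alive_sum hP hu hL ((hc L' x' y hy).2 hg), ix, sum_sigma, Finset.sum_apply, sum_filter]
  refine sum_congr rfl fun j hj => ?_
  rw [mem_Ico] at hj
  have h1 : Alv rs L' j y ↔ Alv rs L' j x' := by
    unfold Alv
    refine forall_congr' fun i => forall_congr' fun hi => forall_congr' fun _ => ?_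
    rw [hP.rs_const i x' y (g.sub_le hi x' hy)]
  by_cases h : Alv rs L' j x'
  · rw [if_pos (h1.2 h), if_pos h, birth_sum S j (H j) (g.sub_le hj.1 x' hy), Finset.sum_apply]
    unfold Finsupp.sum
    exact sum_congr rfl fun i _ => by simp [smul_eq_mul]
  · rw [if_neg (fun h' => h (h1.1 h')), if_neg h]

theorem alive_mass (hP : Pth w L e F gd V H rs lm) {L' : ℕ} {x' : X} (hL : L' ≤ L)
    (hg : gd L' x') : ∑ i ∈ ix S H rs L' L x',
      |bm S i.1 (H i.1) (g.cube i.1 x') i.2| * w.ω i.1 L' x' i.2 = lm L' x' := by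
  rw [hP.lm_eq L' hL x' hg, ix, sum_sigma, sum_filter]
  refine sum_congr rfl fun j _ => ?_
  by_cases h : Alv rs L' j x'
  · rw [if_pos h]
    unfold Alv at h
    rw [if_pos h]
    unfold lden Finsupp.sum
    rfl
  · rw [if_neg h]
    unfold Alv at h
    rw [if_neg h]

/-- **The births alive pay** (third slot). -/
theorem alive3 (hP : Pth w L e F gd V H rs lm)
    (hc : ∀ k x y, y ∈ g.cube k x → (gd k y ↔ gd k x)) (hu : ∀ k < L, ∀ x, gd k x → gd (k + 1) x)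
    {gd0 ud' : ℕ → X → Prop} {L' : ℕ} {x' : X} (hR : Rgn g gd0 L' x' ud') (hL : L' ≤ L)
    (hg : gd L' x') {A B D : ℕ → X → ℝ} {p : ℝ}
    (H1 : ∀ j i, L' ≤ j → j ≤ L → T4 nv ud' A B (st (S.a j i)) D ≤ p * w.ω j L' x' i * cd g L' x') :
    T4 nv ud' A B (st (fun y => F y - V L' y)) D ≤ p * lm L' x' * cd g L' x' := by
  have h1 : T4 nv ud' A B (st (fun y => F y - V L' y)) D = T4 nv ud' A B
      (st (∑ i ∈ ix S H rs L' L x', bm S i.1 (H i.1) (g.cube i.1 x') i.2 • S.a i.1 i.2)) D := by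
    refine T4_congr fun k y hk z hz => ⟨rfl, rfl, ?_, rfl⟩
    obtain ⟨h2, h3⟩ := hR.bel k y hk
    exact alive_atoms hP hc hu hL hg (g.cube_subset h2 h3 hz)
  rw [h1]
  refine (T4_sum3 (ix S H rs L' L x') A B D
    (fun i => bm S i.1 (H i.1) (g.cube i.1 x') i.2) (fun i => S.a i.1 i.2)).trans ?_
  rw [← alive_mass hP hL hg, mul_sum, sum_mul]
  refine sum_le_sum fun i hi => ?_
  have h4 : L' ≤ i.1 ∧ i.1 ≤ L := by
    have h5 := (mem_sigma.1 hi).1
    rw [mem_filter, mem_Ico] at h5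
    omega
  refine (mul_le_mul_of_nonneg_left (H1 i.1 i.2 h4.1 h4.2) (abs_nonneg _)).trans (le_of_eq ?_)
  ring

/-- **The births alive pay** (fourth slot). -/
theorem alive4 (hP : Pth w L e F gd V H rs lm)
    (hc : ∀ k x y, y ∈ g.cube k x → (gd k y ↔ gd k x)) (hu : ∀ k < L, ∀ x, gd k x → gd (k + 1) x)
    {gd0 ud' : ℕ → X → Prop} {L' : ℕ} {x' : X} (hR : Rgn g gd0 L' x' ud') (hL : L' ≤ L)
    (hg : gd L' x') {A B C : ℕ → X → ℝ} {p : ℝ}
    (H1 : ∀ j i, L' ≤ j → j ≤ L → T4 nv ud' A B C (st (S.a j i)) ≤ p * w.ω j L' x' i * cd g L' x') :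
    T4 nv ud' A B C (st (fun y => F y - V L' y)) ≤ p * lm L' x' * cd g L' x' := by
  have h1 : T4 nv ud' A B C (st (fun y => F y - V L' y)) = T4 nv ud' A B C
      (st (∑ i ∈ ix S H rs L' L x', bm S i.1 (H i.1) (g.cube i.1 x') i.2 • S.a i.1 i.2)) := by
    refine T4_congr fun k y hk z hz => ⟨rfl, rfl, rfl, ?_⟩
    obtain ⟨h2, h3⟩ := hR.bel k y hk
    exact alive_atoms hP hc hu hL hg (g.cube_subset h2 h3 hz)
  rw [h1]
  refine (T4_sum4 (ix S H rs L' L x') A B C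
    (fun i => bm S i.1 (H i.1) (g.cube i.1 x') i.2) (fun i => S.a i.1 i.2)).trans ?_
  rw [← alive_mass hP hL hg, mul_sum, sum_mul]
  refine sum_le_sum fun i hi => ?_
  have h4 : L' ≤ i.1 ∧ i.1 ≤ L := by
    have h5 := (mem_sigma.1 hi).1
    rw [mem_filter, mem_Ico] at h5
    omega
  refine (mul_le_mul_of_nonneg_left (H1 i.1 i.2 h4.1 h4.2) (abs_nonneg _)).trans (le_of_eq ?_)
  ring

end

end Vale.Agent.P141.H8
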