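import Vale.Agent.P141.H8.Lab
import Vale.Agent.P141.H8.Alive
import Vale.Agent.P141.H935.WinSum
import Vale.Agent.P141.H610.Comp

/-!
# P141, line W, module REC (one-cell recursion), part 3: one round

`Fam2`: two block slots on a region: labels `tp`, functions `F j Λ` (static on the windows with top
scale `Λ`), local energies at most `e` on every used cell, hereditary packing `K`.
`round`: from `Fam2` with energies `e` to `Fam2` with energies `K1 e'`, up to explicit payments.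
-/

namespace Vale.Agent.P141.H8

open Finset
open Vale.Agent.P141.H315 Vale.Agent.P141.PL.H318 Vale.Agent.P141.H347 Vale.Agent.P141.H297

noncomputable section

open scoped Classical

variable {X ι α : Type*} {g : Grid X}

/-- The hypotheses of one round: `ez` bounds the local energies, `p` = payments, `q` = final
terms, `r` = the terms with the difference of the moving slot and its end value. -/
structure Rnd (nv : NV g α) (gd : ℕ → X → Prop) (GP G1 : X → ℝ) (P : ℕ → X → ℝ)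
    (S : Fin 2 → CSys g ι) (w : ∀ j, LW (S j)) (ez Cg p q r : ℝ) : Prop where
  payX : ∀ L x ud, Rgn g gd L x ud → ud L x → ∀ Z, En g ud Z ez → ∀ j, L ≤ j → ∀ i,
    T4 nv ud (st GP) (st G1) (st ((S 0).a j i)) (st Z) ≤ p * (w 0).ω j L x i * cd g L x
  payY : ∀ L x ud, Rgn g gd L x ud → ud L x → ∀ Z, En g ud Z ez → ∀ j, L ≤ j → ∀ i,
    T4 nv ud (st GP) (st G1) (st Z) (st ((S 1).a j i)) ≤ p * (w 1).ω j L x i * cd g L x
  finX : ∀ L x ud, Rgn g gd L x ud → ud L x → ∀ U Z, Un (S 0) Cg ud U → En g ud U ez →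
    En g ud Z ez → T4 nv ud P (st G1) (st U) (st Z) ≤ q * cd g L x
  finY : ∀ L x ud, Rgn g gd L x ud → ud L x → ∀ U Z, Un (S 1) Cg ud U → En g ud U ez →
    En g ud Z ez → T4 nv ud P (st G1) (st Z) (st U) ≤ q * cd g L x
  mbb : ∀ L x ud, Rgn g gd L x ud → ud L x → ∀ U Z, En g ud U ez → En g ud Z ez →
    T4 nv ud (fun k => GP - P k) (st G1) (st U) (st Z) ≤ r * cd g L x

/-- the moving function of a block slot -/
def mv (tp : ℕ → X → ℕ) (F : ℕ → X → ℝ) : ℕ → X → ℝ := fun k y => F (tp k y) y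

/-- Two block slots on a region. -/
structure Fam2 (g : Grid X) (ud : ℕ → X → Prop) (L : ℕ) (tp : ℕ → X → ℕ)
    (F : Fin 2 → ℕ → X → ℝ) (e K : ℝ) : Prop where
  lab : Lab g L tp
  en : ∀ j k y, ud k y → dot (g.cube k y) (F j (tp k y)) (F j (tp k y)) ≤ e * cd g k y
  pack : ∀ k y, ud k y → tops g ud tp k y ≤ K * cd g k y

theorem En.mono {ud : ℕ → X → Prop} {F : X → ℝ} {c c' : ℝ} (h : En g ud F c) (hc : c ≤ c') :
    En g ud F c' := fun k y hy =>
  (h k y hy).trans (mul_le_mul_of_nonneg_right hc (H347.cd_pos g k y).le)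

theorem dot_sq (Q : Finset X) (F : X → ℝ) : dot Q F F = ∑ y ∈ Q, F y ^ 2 :=
  sum_congr rfl fun _ _ => (sq _).symm

/-- the constant for the local energies -/
def K1 (B Cg : ℝ) : ℝ := 16 + 4 * (B * (8 * (1 + 2 * Cg)) + 3) + 2 * (1 + 2 * Cg)

/-- the constant for the packing -/
def K2 (B e e' : ℝ) : ℝ := 2 * (2 + B + 4 * B + 128 * B * (e / e'))

variable {nv : NV g α} {gd : ℕ → X → Prop} {GP G1 : X → ℝ} {P : ℕ → X → ℝ}
  {S : Fin 2 → CSys g ι} {w : ∀ j, LW (S j)} {Cg p q r : ℝ}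

theorem T4_split3 {ud : ℕ → X → Prop} (A B D : ℕ → X → ℝ) (F G : X → ℝ) :
    T4 nv ud A B (st F) D ≤ T4 nv ud A B (st (fun y => F y - G y)) D + T4 nv ud A B (st G) D := by
  refine le_trans (le_of_eq ?_) (T4_add3 A B (st (fun y => F y - G y)) (st G) D)
  refine T4_congr fun k y _ z _ => ⟨rfl, rfl, ?_, rfl⟩
  simp [st]

theorem T4_split4 {ud : ℕ → X → Prop} (A B C : ℕ → X → ℝ) (F G : X → ℝ) :
    T4 nv ud A B C (st F) ≤ T4 nv ud A B C (st (fun y => F y - G y)) + T4 nv ud A B C (st G) := by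
  refine le_trans (le_of_eq ?_) (T4_add4 A B C (st (fun y => F y - G y)) (st G))
  refine T4_congr fun k y _ z _ => ⟨rfl, rfl, rfl, ?_⟩
  simp [st]

theorem T4_split1 {ud : ℕ → X → Prop} (B C D : ℕ → X → ℝ) :
    T4 nv ud (st GP) B C D ≤ T4 nv ud P B C D + T4 nv ud (fun k => GP - P k) B C D := by
  refine le_trans (le_of_eq ?_) (T4_add1 P (fun k => GP - P k) B C D)
  refine T4_congr fun k y _ z _ => ⟨?_, rfl, rfl, rfl⟩
  simp [st]

/-- **The inequality on one window** of the two paths. -/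
theorem one_window (hM : ∀ j, Mix (S j) Cg) (hC : 0 ≤ Cg) {B : ℝ} (hB0 : 0 ≤ B)
    (hB : ∀ k x, cd g (k + 1) x ≤ B * cd g k x) {e e' : ℝ} (he' : 0 < e') (hee : e' ≤ e)
    (hp : 0 ≤ p) (hR : Rnd nv gd GP G1 P S w (K1 B Cg * e) Cg p q r)
    {L : ℕ} {ud : ℕ → X → Prop} {FF : Fin 2 → X → ℝ} {V H : Fin 2 → ℕ → X → ℝ}
    {rs : Fin 2 → ℕ → X → Prop} {lm : Fin 2 → ℕ → X → ℝ}
    (hG : En g ud (FF 1) e) (hP : Paths w L e FF ud V H rs lm)
    {Λ : ℕ} (hΛ : Λ ≤ L) {z : X} (hu : ud Λ z) {ud' : ℕ → X → Prop} (hW : Rgn g gd Λ z ud')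
    (htop : ud' Λ z) (hsub : ∀ k y, ud' k y → ud k y ∧ k ≤ Λ ∧ y ∈ g.cube Λ z ∧
      tp w L ud V H rs e' (8 * (1 + 2 * Cg)) k y = Λ) :
    T4 nv ud' (st GP) (st G1) (st (FF 0)) (st (FF 1)) ≤ (32 * e * p + 2 * (q + r)) * cd g Λ z +
      T4 nv ud' (st GP) (st G1)
        (st (fun y => V 0 Λ y - Ue w L ud V H rs e' (8 * (1 + 2 * Cg)) 0 Λ y))
        (st (fun y => V 1 Λ y - Ue w L ud V H rs e' (8 * (1 + 2 * Cg)) 1 Λ y)) ∧
    ∀ j, En g ud' (fun y => V j Λ y - Ue w L ud V H rs e' (8 * (1 + 2 * Cg)) j Λ y)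
      (K1 B Cg * e') := by
  have he : 0 < e := he'.trans_le hee
  set C2 : ℝ := 8 * (1 + 2 * Cg) with hC2
  have hC20 : 0 ≤ C2 := by positivity
  have hK1 : K1 B Cg = 16 + 4 * (B * C2 + 3) + 2 * (1 + 2 * Cg) := rfl
  have hBC : 0 ≤ B * C2 := mul_nonneg hB0 hC20
  have hcd := H347.cd_pos g Λ z
  have hwin : ∀ k y, ud' k y → ud k y ∧ k ≤ Λ ∧ tp w L ud V H rs e' C2 k y = Λ ∧ ud Λ y := by
    intro k y h
    obtain ⟨h1, h2, h3, h4⟩ := hsub k y h
    exact ⟨h1, h2, h4, (hP.gd_const Λ z y h3).2 hu⟩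
  -- energies
  have eU : ∀ j, En g ud' (Ue w L ud V H rs e' C2 j Λ) (K1 B Cg * e) := by
    intro j k y hky
    obtain ⟨h0, h1, h2, h3⟩ := hwin k y hky
    rw [dot_sq]
    refine (Ue_energy hP j hΛ h1 h2 h3).trans
      (mul_le_mul_of_nonneg_right ?_ (H347.cd_pos g k y).le)
    rw [hK1]; nlinarith
  have eX : ∀ j, En g ud' (fun y => V j Λ y - Ue w L ud V H rs e' C2 j Λ y)
      (K1 B Cg * e') := by
    intro j k y hky
    obtain ⟨h0, h1, h2, h3⟩ := hwin k y hky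
    rw [dot_sq]
    refine (X_dist hP j (hM j) hC hB he'.le hC20 hΛ h1 h2 h3).trans ?_
    rw [← mul_assoc]
    refine mul_le_mul_of_nonneg_right ?_ (H347.cd_pos g k y).le
    rw [hK1]; nlinarith
  have eV : ∀ j, En g ud' (V j Λ) (K1 B Cg * e) := by
    intro j k y hky
    obtain ⟨h0, h1, h2, h3⟩ := hwin k y hky
    have h4 := top_dist hP j hB he'.le hC20 hΛ h1 h2
    have h5 := (hP.path j).enV k (h1.trans hΛ) y h0
    rw [dot_sq] at h5 ⊢
    have h6 : ∑ t ∈ g.cube k y, V j Λ t ^ 2 ≤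
        ∑ t ∈ g.cube k y, (2 * (V j Λ t - V j k t) ^ 2 + 2 * V j k t ^ 2) :=
      sum_le_sum fun t _ => by nlinarith [sq_nonneg (V j Λ t - 2 * V j k t)]
    rw [sum_add_distrib, ← mul_sum, ← mul_sum] at h6
    have h7 := H347.cd_pos g k y
    have h8 : 2 * (2 * (B * C2 + 3) * (e' * cd g k y)) + 2 * (8 * e * cd g k y) ≤
        K1 B Cg * e * cd g k y := by
      have : 2 * (2 * (B * C2 + 3) * (e' * cd g k y)) + 2 * (8 * e * cd g k y) =
        (4 * (B * C2 + 3) * e' + 16 * e) * cd g k y := by ring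
      rw [this]
      refine mul_le_mul_of_nonneg_right ?_ h7.le
      rw [hK1]; nlinarith
    linarith
  have hee1 : K1 B Cg * e' ≤ K1 B Cg * e :=
    mul_le_mul_of_nonneg_left hee (by rw [hK1]; positivity)
  have eG : En g ud' (FF 1) (K1 B Cg * e) := fun k y hky =>
    (hG k y (hwin k y hky).1).trans (mul_le_mul_of_nonneg_right (by rw [hK1]; nlinarith)
      (H347.cd_pos g k y).le)
  have uU : ∀ j, Un (S j) Cg ud' (Ue w L ud V H rs e' C2 j Λ) := by
    intro j k y hky i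
    obtain ⟨h0, h1, h2, h3⟩ := hwin k y hky
    exact Ue_unif hP j (hM j) hΛ h1 h2 h3 i
  refine ⟨?_, eX⟩
  -- births alive at the top
  have m0 : lm 0 Λ z ≤ 16 * e := (hP.path 0).mass Λ hΛ z hu
  have m1 : lm 1 Λ z ≤ 16 * e := (hP.path 1).mass Λ hΛ z hu
  have a1 : T4 nv ud' (st GP) (st G1) (st (fun y => FF 0 y - V 0 Λ y)) (st (FF 1)) ≤
      p * (16 * e) * cd g Λ z :=
    (alive3 (hP.path 0) hP.gd_const hP.gd_up
      hW hΛ hu (fun j i hj _ => hR.payX Λ z _ hW htop (FF 1) eG j hj i)).trans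
      (mul_le_mul_of_nonneg_right (mul_le_mul_of_nonneg_left m0 hp) hcd.le)
  have a2 : T4 nv ud' (st GP) (st G1) (st (V 0 Λ)) (st (fun y => FF 1 y - V 1 Λ y)) ≤
      p * (16 * e) * cd g Λ z :=
    (alive4 (hP.path 1) hP.gd_const hP.gd_up
      hW hΛ hu (fun j i hj _ => hR.payY Λ z _ hW htop (V 0 Λ) (eV 0) j hj i)).trans
      (mul_le_mul_of_nonneg_right (mul_le_mul_of_nonneg_left m1 hp) hcd.le)
  -- the other terms
  have f1 := hR.finX Λ z _ hW htop _ (V 1 Λ) (uU 0) (eU 0) (eV 1)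
  have f2 := hR.finY Λ z _ hW htop _ _ (uU 1) (eU 1) ((eX 0).mono hee1)
  have b1 := hR.mbb Λ z _ hW htop _ (V 1 Λ) (eU 0) (eV 1)
  have b2 := hR.mbb Λ z _ hW htop _ _ ((eX 0).mono hee1) (eU 1)
  have s1 := T4_split3 (nv := nv) (ud := ud') (st GP) (st G1) (st (FF 1)) (FF 0) (V 0 Λ)
  have s2 := T4_split4 (nv := nv) (ud := ud') (st GP) (st G1) (st (V 0 Λ)) (FF 1) (V 1 Λ)
  have s3 := T4_split3 (nv := nv) (ud := ud') (st GP) (st G1) (st (V 1 Λ)) (V 0 Λ)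
    (Ue w L ud V H rs e' C2 0 Λ)
  have s4 := T4_split4 (nv := nv) (ud := ud') (st GP) (st G1)
    (st (fun y => V 0 Λ y - Ue w L ud V H rs e' C2 0 Λ y)) (V 1 Λ)
    (Ue w L ud V H rs e' C2 1 Λ)
  have s5 := T4_split1 (nv := nv) (ud := ud') (GP := GP) (P := P) (st G1)
    (st (Ue w L ud V H rs e' C2 0 Λ)) (st (V 1 Λ))
  have s6 := T4_split1 (nv := nv) (ud := ud') (GP := GP) (P := P) (st G1)
    (st (fun y => V 0 Λ y - Ue w L ud V H rs e' C2 0 Λ y))
    (st (Ue w L ud V H rs e' C2 1 Λ))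
  have e1 : (32 * e * p + 2 * (q + r)) * cd g Λ z = p * (16 * e) * cd g Λ z +
      p * (16 * e) * cd g Λ z + (q * cd g Λ z + r * cd g Λ z) +
      (q * cd g Λ z + r * cd g Λ z) := by ring
  rw [e1]
  linarith

/-- **One round of the recursion.** -/
theorem round (hM : ∀ j, Mix (S j) Cg) (hC : 0 ≤ Cg) {B : ℝ}
    (hB : ∀ k x, cd g (k + 1) x ≤ B * cd g k x) {e e' : ℝ} (he' : 0 < e') (hee : e' ≤ e)
    (hp : 0 ≤ p) (hq : 0 ≤ q) (hr : 0 ≤ r)
    (hR : Rnd nv gd GP G1 P S w (K1 B Cg * e) Cg p q r)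
    {L : ℕ} {x : X} {ud : ℕ → X → Prop} (hU : Rgn g gd L x ud) (hx : ud L x)
    {t : ℕ → X → ℕ} {F : Fin 2 → ℕ → X → ℝ} {K : ℝ} (hK : 0 ≤ K) (hF : Fam2 g ud L t F e K) :
    ∃ (t' : ℕ → X → ℕ) (F' : Fin 2 → ℕ → X → ℝ),
      Fam2 g ud L t' F' (K1 B Cg * e') ((K + 1) * K2 B e e') ∧
      T4 nv ud (st GP) (st G1) (mv t (F 0)) (mv t (F 1)) ≤
        (32 * e * p + 2 * (q + r)) * ((K + 1) * K2 B e e') * cd g L x +
        T4 nv ud (st GP) (st G1) (mv t' (F' 0)) (mv t' (F' 1)) := by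
  have he : 0 < e := he'.trans_le hee
  have hB0 : 0 ≤ B := by
    have h1 := hB L x
    have h2 := H347.cd_pos g L x
    have h3 := H347.cd_pos g (L + 1) x
    by_contra hn
    push Not at hn
    nlinarith
  have hK2 : 0 ≤ K2 B e e' := by unfold K2; positivity
  have hl := hF.lab
  set C2 : ℝ := 8 * (1 + 2 * Cg) with hC2
  -- the regions of the windows with top scale `Λ`
  set rg : ℕ → ℕ → X → Prop := fun Λ k y => k ≤ Λ ∧ ud k y ∧ t k y = Λ with hrg
  have rgc : ∀ Λ ≤ L, ∀ k y z, z ∈ g.cube k y → (rg Λ k z ↔ rg Λ k y) := by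
    intro Λ hΛ k y z hz
    simp only [hrg]
    constructor
    · rintro ⟨h1, h2, h3⟩
      refine ⟨h1, (hU.const k y z hz).1 h2, ?_⟩
      rw [← hl.const k (h1.trans hΛ) y z hz]; exact h3
    · rintro ⟨h1, h2, h3⟩
      refine ⟨h1, (hU.const k y z hz).2 h2, ?_⟩
      rw [hl.const k (h1.trans hΛ) y z hz]; exact h3
  have rgu : ∀ Λ ≤ L, ∀ k < Λ, ∀ y, rg Λ k y → rg Λ (k + 1) y := by
    intro Λ hΛ k hk y
    rintro ⟨h1, h2, h3⟩
    refine ⟨hk, hU.up k (by omega) y h2, ?_⟩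
    rw [hl.btw k (by omega) y (k + 1) (by omega) (by omega), h3]
  have rge : ∀ Λ j, En g (rg Λ) (F j Λ) e := by
    rintro Λ j k y ⟨h1, h2, h3⟩
    have := hF.en j k y h2
    rwa [h3] at this
  have hy : ∀ Λ ≤ L, ∀ j, Hyp g Λ e (F j Λ) (rg Λ) := fun Λ hΛ j =>
    ⟨he, fun k y z hz => rgc Λ hΛ k y z hz, fun k hk y h => rgu Λ hΛ k hk y h,
      fun k _ y h => rge Λ j k y h⟩
  -- the paths
  set V : ℕ → Fin 2 → ℕ → X → ℝ := fun Λ j => pV (w j) Λ e (F j Λ) (rg Λ) with hV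
  set H : ℕ → Fin 2 → ℕ → X → ℝ := fun Λ j => pH (w j) Λ e (F j Λ) (rg Λ) with hH
  set rs : ℕ → Fin 2 → ℕ → X → Prop := fun Λ j => pR (w j) Λ e (F j Λ) (rg Λ) with hrs
  set lm : ℕ → Fin 2 → ℕ → X → ℝ := fun Λ j k => pM (w j) Λ e (F j Λ) (rg Λ) k k with hlm
  have hP : ∀ Λ ≤ L, Paths w Λ e (fun j => F j Λ) (rg Λ) (V Λ) (H Λ) (rs Λ) (lm Λ) :=
    fun Λ hΛ => ⟨fun j => exists_pth (w j) (hy Λ hΛ j), fun k y z h => rgc Λ hΛ k y z h,
      fun k hk y h => rgu Λ hΛ k hk y h⟩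
  set tpo : ℕ → ℕ → X → ℕ := fun Λ => tp w Λ (rg Λ) (V Λ) (H Λ) (rs Λ) e' C2 with htpo
  have hlo : ∀ Λ ≤ L, Lab g Λ (tpo Λ) := fun Λ _ => lab_tp w Λ (rg Λ) (V Λ) (H Λ) (rs Λ) e' C2
  set t' : ℕ → X → ℕ := fun k y => tpo (t k y) k y with ht'
  have hl' : Lab g L t' := H610.lab_comp hl hlo
  set F' : Fin 2 → ℕ → X → ℝ := fun j Λ' y =>
    V (t Λ' y) j Λ' y - Ue w (t Λ' y) (rg (t Λ' y)) (V (t Λ' y)) (H (t Λ' y)) (rs (t Λ' y)) e' C2 j Λ' y
    with hF'
  have hpack : ∀ k y, ud k y → tops g ud t' k y ≤ (K + 1) * K2 B e e' * cd g k y := by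
    refine fun k y hky => H610.tops_comp (tpo := tpo) hU hl hK2 hF.pack ?_ hky
    intro Λ hΛ k hk y hu ht
    have h1 := packing (hP Λ hΛ) hM hC hB he' (C2 := C2)
      (by rw [Fintype.card_fin, hC2]; push_cast; linarith) hk (⟨hk, hu, ht⟩ : rg Λ k y)
    rw [Fintype.card_fin] at h1
    refine le_trans (le_of_eq ?_) (h1.trans (le_of_eq ?_))
    · unfold tops
      refine sum_congr rfl fun i _ => sum_congr rfl fun z _ => ?_
      unfold ind
      split_ifs <;> rfl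
    · unfold K2; push_cast; ring
  -- the analysis on one window
  have hone : ∀ Λ ≤ L, ∀ z, ud Λ z → t' Λ z = Λ →
      T4 nv (Wr g ud t' Λ z) (st GP) (st G1) (mv t (F 0)) (mv t (F 1)) ≤
        (32 * e * p + 2 * (q + r)) * cd g Λ z +
          T4 nv (Wr g ud t' Λ z) (st GP) (st G1) (mv t' (F' 0)) (mv t' (F' 1)) ∧
      ∀ k y, Wr g ud t' Λ z k y → ∀ j,
        dot (g.cube k y) (F' j (t' k y)) (F' j (t' k y)) ≤ K1 B Cg * e' * cd g k y := by
    intro Λ hΛ z hu ht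
    set M := t Λ z with hMd
    have hMΛ : Λ ≤ M := hl.ge Λ hΛ z
    have hML : M ≤ L := hl.le Λ hΛ z
    have hW : Rgn g gd Λ z (Wr g ud t' Λ z) := hU.win hl' hΛ z
    have htop : Wr g ud t' Λ z Λ z := ⟨hu, le_rfl, g.mem _ _, ht⟩
    -- the parent label on the window
    have hpar : ∀ k y, Wr g ud t' Λ z k y → t k y = M ∧ t Λ y = M ∧ tpo M k y = Λ := by
      rintro k y ⟨h1, h2, h3, h4⟩
      have h5 : t Λ y = M := hl.const Λ hΛ z y h3
      have h6 : Λ ≤ t k y := by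
        have h7 : tpo (t k y) k y ≤ t k y :=
          (hlo (t k y) (hl.le k (h2.trans hΛ) y)).le k (hl.ge k (h2.trans hΛ) y) y
        rw [← h4]; exact h7
      have h8 : t k y = M := by
        rw [← h5, hl.btw k (h2.trans hΛ) y Λ h2 h6]
      refine ⟨h8, h5, ?_⟩
      rw [← h8]; exact h4
    have hsub : ∀ k y, Wr g ud t' Λ z k y → rg M k y ∧ k ≤ Λ ∧ y ∈ g.cube Λ z ∧
        tp w M (rg M) (V M) (H M) (rs M) e' (8 * (1 + 2 * Cg)) k y = Λ := by
      rintro k y h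
      obtain ⟨h5, h6, h7⟩ := hpar k y h
      obtain ⟨h1, h2, h3, h4⟩ := h
      exact ⟨⟨h2.trans hMΛ, h1, h5⟩, h2, h3, h7⟩
    obtain ⟨r1, r2⟩ := one_window (L := M) (ud := rg M) (FF := fun j => F j M) hM hC hB0 hB he' hee
      hp hR (rge M 1) (hP M hML) hMΛ (⟨hMΛ, hu, rfl⟩ : rg M Λ z) hW htop hsub
    have hval : ∀ k y, Wr g ud t' Λ z k y → ∀ j, ∀ s ∈ g.cube k y,
        F' j (t' k y) s = V M j Λ s - Ue w M (rg M) (V M) (H M) (rs M) e' C2 j Λ s := by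
      intro k y h j s hs
      have h4 := h.2.2.2
      have h2 := h.2.1
      have h3 := h.2.2.1
      have h5 : t Λ s = M := by
        rw [hl.const Λ hΛ z s (g.cube_subset h2 h3 hs)]
      rw [h4]
      simp only [hF']
      rw [h5]
    constructor
    · have c1 : T4 nv (Wr g ud t' Λ z) (st GP) (st G1) (mv t (F 0)) (mv t (F 1)) =
          T4 nv (Wr g ud t' Λ z) (st GP) (st G1) (st (F 0 M)) (st (F 1 M)) := by
        refine T4_congr fun k y hky s hs => ?_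
        have h1 := (hpar k y hky).1
        have h2 : t k s = M := by rw [hl.const k (hky.2.1.trans hΛ) y s hs, h1]
        refine ⟨rfl, rfl, ?_, ?_⟩ <;> · simp only [mv, st]; rw [h2]
      have c2 : T4 nv (Wr g ud t' Λ z) (st GP) (st G1) (mv t' (F' 0)) (mv t' (F' 1)) =
          T4 nv (Wr g ud t' Λ z) (st GP) (st G1)
            (st (fun y => V M 0 Λ y - Ue w M (rg M) (V M) (H M) (rs M) e' C2 0 Λ y))
            (st (fun y => V M 1 Λ y - Ue w M (rg M) (V M) (H M) (rs M) e' C2 1 Λ y)) := by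
        refine T4_congr fun k y hky s hs => ?_
        have h2 : t' k s = t' k y := hl'.const k (hky.2.1.trans hΛ) y s hs
        refine ⟨rfl, rfl, ?_, ?_⟩
        · simp only [mv, st]; rw [h2]; exact hval k y hky 0 s hs
        · simp only [mv, st]; rw [h2]; exact hval k y hky 1 s hs
      rw [c1, c2]
      exact r1
    · intro k y hky j
      rw [dot_congr (fun s hs => hval k y hky j s hs) (fun s hs => hval k y hky j s hs)]
      exact r2 j k y hky
  refine ⟨t', F', ⟨hl', ?_, hpack⟩, ?_⟩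
  · -- energies
    intro j k y hu
    have hkL := (hU.bel k y hu).1
    have h1 : k ≤ t' k y := hl'.ge k hkL y
    have h2 : t' k y ≤ L := hl'.le k hkL y
    have h3 : t' (t' k y) y = t' k y := hl'.btw k hkL y _ h1 le_rfl
    exact (hone (t' k y) h2 y (hU.up' h1 h2 hu) h3).2 k y ⟨hu, h1, g.mem _ _, rfl⟩ j
  · have h1 := H935.win_le (nv := nv) hU hl' (fun i hi z _ hu ht => (hone i hi z hu ht).1)
    refine h1.trans ?_
    have h2 := hpack L x hx
    have h3 : 0 ≤ 32 * e * p + 2 * (q + r) := by positivity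
    have h4 := mul_le_mul_of_nonneg_left h2 h3
    linarith

end

end Vale.Agent.P141.H8
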