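import Vale.Agent.P141.H460.AffK
import Vale.Agent.P141.H677.FDb

/-!
# P141, line (A): the births of the cut families, any slot

* `Q1F`, `Q2F`, `Q3F` : the affected squares of the three families as sets of cells;
  `AfB` : the affected nodes of an offset of the window;
* `fagr_FDs`, `gpack_FDs`, `capA_FDs`, `massb_FDs` : the hypotheses of `H460.kp_births`;
* `qB_le` : the births functional `H677.Sk.qB` of any slot by the energies `EV` of the slot at the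
  affected nodes.
-/

namespace Vale.Agent.P141.H8B

open Finset Matrix
open Vale.Agent.P141.PL (Pt iv hs ix mem_iv mem_cb ix_ix cb cx)
open Vale.Agent.P141.PL.H315 (Tri)
open Vale.Agent.P141.H48 (US ES BSl sst)
open Vale.Agent.P141.H677 (rt kF GA)
open Vale.Agent.P141.H677.Sk (Slt FamA FamV FDs qB)
open Vale.Agent.P141.H460 (GPack QPack FAgr fAR tc Win nAff)
open Vale.Agent.P141.H576 (QD)

noncomputable section

open scoped Classical

/-- affected squares of `A`, cells `(x0, x2, x3)` -/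
def Q1F (q : H401.Num) (U : Tri) (K : ℕ) (Q1 : ℕ → Pt → Prop) (k : ℕ) (m : Pt) : Prop :=
  QD (fun k x y => sst q.Lm U.2.2 K k x y) Q1 k m.1 m.2.1 m.2.2

/-- affected squares of `C`, cells `(x0, x1, x3)` -/
def Q2F (q : H401.Num) (U : Tri) (K : ℕ) (Q2 : ℕ → Pt → Prop) (k : ℕ) (m : Pt) : Prop :=
  QD (fun k x y => sst q.Lm U.2.1 K k x y) Q2 k m.1 m.2.1 m.2.2

/-- affected squares of `b`, cells `(x0, x1, x2)` -/
def Q3F (q : H401.Num) (U : Tri) (K : ℕ) (Q3 : ℕ → Pt → Prop) (k : ℕ) (m : Pt) : Prop :=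
  QD (fun k x y => sst q.Lm U.1 K k x y) Q3 k m.1 m.2.1 m.2.2

/-- the affected nodes of the offset `o` -/
def AfB (q : H401.Num) (U : Tri) (K : ℕ) (Q1 Q2 Q3 : ℕ → Pt → Prop) (o : ℤ) :
    ℕ → Pt → Prop :=
  nAff o (Q1F q U K Q1) (Q2F q U K Q2) (Q3F q U K Q3)

theorem qpack_QD {D : ℕ → ℤ → ℤ → Prop} (hD : H576.Dd D) {n : ℕ} {e cP : ℝ}
    {F : ℕ → Pt → ℝ} {Q : ℕ → Pt → Prop} (hB : BSl n e cP F Q) :
    QPack n (fun k m => QD D Q k m.1 m.2.1 m.2.2) (cP + 2) :=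
  fun x0 _ hK r s => H576.QD_pack hD hB x0 hK r s

variable {ι : Type} [Fintype ι] [DecidableEq ι]

variable {q : H401.Num} {n : ℕ} {ez : ℝ} {F1 F2 F3 : ℕ → Pt → ℝ} {K : ℕ} {x : Pt} {s r : ℝ}
  {U : Tri} {g : ℤ → ℤ → ℝ} {u v : ℤ → ℤ → ι → ℝ} {A : FamA} {b C : FamV ι}
  {Q1 Q2 Q3 : ℕ → Pt → Prop} {v' : ℤ → ℤ → ι → ℝ}

/-- packing of the affected nodes, any offset of the window -/
theorem gpack_FDs (h : FDs q n ez F1 F2 F3 K x s r U g u v A b C Q1 Q2 Q3 v') (hKn : K ≤ n)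
    {o : ℤ} (ho : o ∈ Win) : GPack (AfB q U K Q1 Q2 Q3 o) K (43 * (q.cP + 2)) := by
  have g := H460.gpack_gen (qpack_QD (H576.Dd_sst q.Lm U.2.2 K) h.B1)
    (qpack_QD (H576.Dd_sst q.Lm U.2.1 K) h.B2) (qpack_QD (H576.Dd_sst q.Lm U.1 K) h.B3) ho hKn
  have e : 21 * (q.cP + 2) + (q.cP + 2 + 21 * (q.cP + 2)) = 43 * (q.cP + 2) := by ring
  rw [e] at g
  exact g

/-- agreement off the affected nodes, any offset -/
theorem fagr_FDs (h : FDs q n ez F1 F2 F3 K x s r U g u v A b C Q1 Q2 Q3 v') (hKn : K ≤ n)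
    (o : ℤ) : FAgr o K (AfB q U K Q1 Q2 Q3 o) A b C := by
  intro k hk y hy
  unfold AfB H460.nAff at hy
  push Not at hy
  obtain ⟨h1, h2, h3⟩ := hy
  refine ⟨fun z hz w hw => ?_, fun a ha w hw => ?_, fun z hz a ha => ?_⟩
  · exact (h.agA y.1 k hk (ix k y.2.2) (tc o k y) h1 z hz w hw).symm
  · exact (h.agb y.1 k hk (ix k y.2.1) (tc o k y) h3 a ha w hw).symm
  · rw [h.C_eq, h.C_eq]
    have e := H576.agree_kD (H576.Dd_sst q.Lm U.2.1 K) h.B2 (lt_of_lt_of_le hk hKn) (x0 := y.1)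
      (r := ix k y.2.1) (s := ix k y.2.2) h2 ha hz
    rw [H576.kD_sst] at e
    rw [e]

/-- the cap of `A` at both times -/
theorem capA_FDs (h : FDs q n ez F1 F2 F3 K x s r U g u v A b C Q1 Q2 Q3 v') {b' : ℕ}
    (hb : b' ∈ range 2) {k : ℕ} (hk : k < K) (x0 n' m' : ℤ) (w : ℤ → ℝ) :
    ∑ z ∈ iv k n', (∑ y ∈ iv k m', A x0 (k + b') z y * w y) ^ 2 ≤
      q.th s r ^ 2 * 4 ^ k * ∑ y ∈ iv k m', w y ^ 2 := by
  have hb' := mem_range.1 hb
  have key : H205.CapS (q.th s r ^ 2) k k (H103.un (A x0 (k + b'))) n' m' := by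
    interval_cases b'
    · exact h.capA x0 k hk.le n' m'
    · exact h.capA1 x0 k hk n' m'
  have h1 := key w
  unfold H103.un at h1
  simp only [univ_unique, sum_singleton] at h1
  have e4 : (4 : ℝ) ^ k = 2 ^ k * 2 ^ k := by rw [← mul_pow]; norm_num
  rw [e4]
  refine le_trans (le_of_eq (sum_congr rfl fun z _ => ?_)) h1
  congr 1
  exact sum_congr rfl fun y _ => mul_comm _ _

/-- the mass of `b` at both times -/
theorem massb_FDs (h : FDs q n ez F1 F2 F3 K x s r U g u v A b C Q1 Q2 Q3 v') {b' : ℕ}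
    (hb : b' ∈ range 2) {k : ℕ} (hk : k < K) (i : ℤ) {n' m' : ℤ}
    (hn : n' ∈ iv (K - k) (ix K x.1)) (hm : m' ∈ iv (K - k) (ix K x.2.1)) :
    ∑ x0 ∈ iv k i, ∑ x1 ∈ iv k n', ∑ y ∈ iv k m', b x0 (k + b') x1 y ⬝ᵥ b x0 (k + b') x1 y ≤
      q.CD * (q.Lm * s) * 8 ^ k := by
  have hb' := mem_range.1 hb
  interval_cases b'
  · exact h.massb k hk.le k (Or.inl rfl) i n' hn m' hm
  · exact h.massb k hk.le (k + 1) (Or.inr ⟨rfl, hk⟩) i n' hn m' hm

/-- **The births of the cut families, any slot.** -/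
theorem qB_le (h : FDs q n ez F1 F2 F3 K x s r U g u v A b C Q1 Q2 Q3 v') (hKn : K ≤ n)
    (hCD : 0 ≤ q.CD * (q.Lm * s)) (R : Slt ι) {EV : ℝ}
    (hEV : ∀ t ∈ rt (cx K x), ∀ o ∈ Win, ∀ b' ∈ range 2,
      ∑ k ∈ range (K + 1), ∑ y ∈ cb K (t, (cx K x).1, (cx K x).2.2),
        (if fAR o K (cx K x).2.1 (AfB q U K Q1 Q2 Q3 o) k (cx k y) then
          (R y.1 k y.2.2 y.2.1 *ᵥ C y.1 (k + b') y.2.2 y.2.1) ⬝ᵥ
          (R y.1 k y.2.2 y.2.1 *ᵥ C y.1 (k + b') y.2.2 y.2.1) else 0) ≤ EV) :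
    qB K (cx K x) R A b C ≤ 126 * (√EV * √(4 * q.th s r ^ 2 * (q.CD * (q.Lm * s)) *
      (43 * (q.cP + 2) * 8 ^ K))) := by
  unfold H677.Sk.qB
  have one : ∀ t ∈ rt (cx K x), ∑ x0 ∈ iv K t, ∑ k ∈ range K,
      |H352.In K (cx K x) (H795.kp (-x0) k) (fun y =>
        GA (A x0) (b x0) (C x0) (R x0) k k y - GA (A x0) (b x0) (C x0) (R x0) k (k + 1) y)| ≤
      42 * (√EV * √(4 * q.th s r ^ 2 * (q.CD * (q.Lm * s)) * (43 * (q.cP + 2) * 8 ^ K))) := by
    intro t ht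
    refine H460.kp_births (cx K x) t (c0 := fun x0 => -x0) (fun x0 _ k _ => ?_)
      (Af := AfB q U K Q1 Q2 Q3) R (fun o _ => fagr_FDs h hKn o)
      (fun o ho => gpack_FDs h hKn ho) (sq_nonneg _) hCD
      (fun o _ b' hb k hk y _ _ w => capA_FDs h hb hk y.1 _ _ w) ?_ (hEV t ht)
    · have h0 := (mem_iv (k := k) (m := ix k (-x0)) (x := -x0)).2 rfl
      have h1 := (mem_iv (k := k) (m := ix k x0) (x := x0)).2 rfl
      have hD : (1 : ℤ) ≤ 2 ^ k := one_le_pow₀ (by norm_num)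
      generalize ix k (-x0) = a at *
      generalize ix k x0 = c at *
      unfold PL.iv at h0 h1
      rw [mem_Ico] at h0 h1
      generalize (2 : ℤ) ^ k = D at *
      rw [abs_le]
      constructor
      · by_contra hc
        have h2 : a + c ≤ -4 := by omega
        have h3 : D * (a + c) ≤ D * (-4) := mul_le_mul_of_nonneg_left h2 (by omega)
        nlinarith
      · by_contra hc
        have h2 : 4 ≤ a + c := by omega
        have h3 : D * 4 ≤ D * (a + c) := mul_le_mul_of_nonneg_left h2 (by omega)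
        nlinarith
    · intro o _ b' hb k hk y hy hf
      refine massb_FDs h hb hk _ ?_ hf.2.1
      rw [mem_cb] at hy
      rw [mem_iv, ix_ix, Nat.add_sub_cancel' hk.le]
      have e1 : (cx K y).2.1 = (cx K x).1 := by rw [hy]
      exact e1
  refine (sum_le_sum one).trans ?_
  have hcard : ((rt (cx K x)).card : ℝ) = 3 := by
    unfold H677.rt
    rw [Int.card_Icc]
    have e1 : -((cx K x).1 + (cx K x).2.1 + (cx K x).2.2) - 1 + 1 -
        (-((cx K x).1 + (cx K x).2.1 + (cx K x).2.2) - 3) = 3 := by ring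
    rw [e1]
    have h3 : Int.toNat 3 = 3 := rfl
    rw [h3]
    norm_num
  rw [sum_const, nsmul_eq_mul, hcard]
  refine le_of_eq ?_
  ring

end

end Vale.Agent.P141.H8B
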