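import Vale.Agent.P141.H297.Win6
import Vale.Agent.P141.H347.Cell5

/-!
# P141, line W, module REC (one-cell recursion), part 1: regions and totals

`NV g α`: the values of the nodes (a four-linear expression read on the cube of the node).
`Rgn gd L x ud`: `ud` is a region of used cells below the cell `(L, x)`.
`T4`: the sum of the absolute values over the nodes of a region, for four families `ℕ → X → ℝ`.
-/

namespace Vale.Agent.P141.H8

open Finset
open Vale.Agent.P141.H315 Vale.Agent.P141.PL.H318 Vale.Agent.P141.H347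

noncomputable section

open scoped Classical

/-- Node values: the node `N` is read on the cube `(sc N, pt N)`; linear in the slots 1, 3, 4. -/
structure NV {X : Type*} (g : Grid X) (α : Type*) where
  /-- the nodes -/
  nd : Finset α
  /-- the scale of a node -/
  sc : α → ℕ
  /-- the cell of a node -/
  pt : α → X
  /-- the value of a node -/
  v : α → (X → ℝ) → (X → ℝ) → (X → ℝ) → (X → ℝ) → ℝ
  add1 : ∀ N a a' b c d, v N (a + a') b c d = v N a b c d + v N a' b c d
  add3 : ∀ N a b c c' d, v N a b (c + c') d = v N a b c d + v N a b c' d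
  add4 : ∀ N a b c d d', v N a b c (d + d') = v N a b c d + v N a b c d'
  smul3 : ∀ N (r : ℝ) a b c d, v N a b (r • c) d = r * v N a b c d
  smul4 : ∀ N (r : ℝ) a b c d, v N a b c (r • d) = r * v N a b c d
  congr : ∀ N a a' b b' c c' d d',
    (∀ y ∈ g.cube (sc N) (pt N), a y = a' y ∧ b y = b' y ∧ c y = c' y ∧ d y = d' y) →
      v N a b c d = v N a' b' c' d'

variable {X ι α : Type*} {g : Grid X}

/-- A region of used cells below the cell `(L, x)`, hereditary, inside `gd`. -/
structure Rgn (g : Grid X) (gd : ℕ → X → Prop) (L : ℕ) (x : X) (ud : ℕ → X → Prop) : Prop where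
  const : ∀ k y z, z ∈ g.cube k y → (ud k z ↔ ud k y)
  up : ∀ k < L, ∀ y, ud k y → ud (k + 1) y
  bel : ∀ k y, ud k y → k ≤ L ∧ y ∈ g.cube L x
  sub : ∀ k y, ud k y → gd k y

/-- local energy at most `c` on the used cells -/
def En (g : Grid X) (ud : ℕ → X → Prop) (F : X → ℝ) (c : ℝ) : Prop :=
  ∀ k y, ud k y → dot (g.cube k y) F F ≤ c * cd g k y

/-- uniformity with the constant `C` on the used cells -/
def Un (S : CSys g ι) (C : ℝ) (ud : ℕ → X → Prop) (F : X → ℝ) : Prop :=
  ∀ k y, ud k y → ∀ i, |dot (g.cube k y) F (S.a k i)| ≤ C * S.W k (g.cube k y) i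

/-- a static family -/
def st (F : X → ℝ) : ℕ → X → ℝ := fun _ => F

/-- the total of a region -/
def T4 (nv : NV g α) (ud : ℕ → X → Prop) (A B C D : ℕ → X → ℝ) : ℝ :=
  ∑ N ∈ nv.nd, if ud (nv.sc N) (nv.pt N) then
    |nv.v N (A (nv.sc N)) (B (nv.sc N)) (C (nv.sc N)) (D (nv.sc N))| else 0

/-- the sum over the used cells of a density -/
def Phi (g : Grid X) (ph : ℕ → X → ℝ) (L : ℕ) (x : X) (ud : ℕ → X → Prop) : ℝ :=
  ∑ k ∈ range (L + 1), ∑ z ∈ g.cube L x, if ud k z then ph k z else 0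

variable {nv : NV g α} {ud : ℕ → X → Prop} {gd : ℕ → X → Prop} {L : ℕ} {x : X}

theorem T4_nonneg (A B C D : ℕ → X → ℝ) : 0 ≤ T4 nv ud A B C D :=
  sum_nonneg fun N _ => by split_ifs; exacts [abs_nonneg _, le_rfl]

theorem T4_congr {A A' B B' C C' D D' : ℕ → X → ℝ}
    (h : ∀ k y, ud k y → ∀ z ∈ g.cube k y,
      A k z = A' k z ∧ B k z = B' k z ∧ C k z = C' k z ∧ D k z = D' k z) :
    T4 nv ud A B C D = T4 nv ud A' B' C' D' := by
  unfold T4
  refine sum_congr rfl fun N _ => ?_
  split_ifs with hu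
  · rw [nv.congr N _ _ _ _ _ _ _ _ fun y hy => h _ _ hu y hy]
  · rfl

theorem T4_add1 (A A' B C D : ℕ → X → ℝ) :
    T4 nv ud (fun k => A k + A' k) B C D ≤ T4 nv ud A B C D + T4 nv ud A' B C D := by
  unfold T4
  rw [← sum_add_distrib]
  refine sum_le_sum fun N _ => ?_
  split_ifs
  · rw [nv.add1]; exact abs_add_le _ _
  · simp

theorem T4_add3 (A B C C' D : ℕ → X → ℝ) :
    T4 nv ud A B (fun k => C k + C' k) D ≤ T4 nv ud A B C D + T4 nv ud A B C' D := by
  unfold T4
  rw [← sum_add_distrib]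
  refine sum_le_sum fun N _ => ?_
  split_ifs
  · rw [nv.add3]; exact abs_add_le _ _
  · simp

theorem T4_add4 (A B C D D' : ℕ → X → ℝ) :
    T4 nv ud A B C (fun k => D k + D' k) ≤ T4 nv ud A B C D + T4 nv ud A B C D' := by
  unfold T4
  rw [← sum_add_distrib]
  refine sum_le_sum fun N _ => ?_
  split_ifs
  · rw [nv.add4]; exact abs_add_le _ _
  · simp

theorem v_zero3 (N : α) (a b d : X → ℝ) : nv.v N a b 0 d = 0 := by
  have := nv.smul3 N 0 a b 0 d
  rwa [zero_smul, zero_mul] at this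

theorem v_zero4 (N : α) (a b c : X → ℝ) : nv.v N a b c 0 = 0 := by
  have := nv.smul4 N 0 a b c 0
  rwa [zero_smul, zero_mul] at this

theorem v_sum3 {κ : Type*} (s : Finset κ) (N : α) (a b d : X → ℝ) (r : κ → ℝ) (c : κ → X → ℝ) :
    nv.v N a b (∑ i ∈ s, r i • c i) d = ∑ i ∈ s, r i * nv.v N a b (c i) d := by
  induction s using Finset.induction_on with
  | empty => rw [sum_empty, sum_empty, v_zero3]
  | insert i s hi ih => rw [sum_insert hi, sum_insert hi, nv.add3, nv.smul3, ih]

theorem v_sum4 {κ : Type*} (s : Finset κ) (N : α) (a b c : X → ℝ) (r : κ → ℝ) (d : κ → X → ℝ) :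
    nv.v N a b c (∑ i ∈ s, r i • d i) = ∑ i ∈ s, r i * nv.v N a b c (d i) := by
  induction s using Finset.induction_on with
  | empty => rw [sum_empty, sum_empty, v_zero4]
  | insert i s hi ih => rw [sum_insert hi, sum_insert hi, nv.add4, nv.smul4, ih]

theorem T4_sum3 {κ : Type*} (s : Finset κ) (A B D : ℕ → X → ℝ) (r : κ → ℝ) (c : κ → X → ℝ) :
    T4 nv ud A B (st (∑ i ∈ s, r i • c i)) D ≤ ∑ i ∈ s, |r i| * T4 nv ud A B (st (c i)) D := by
  unfold T4
  simp_rw [mul_sum]
  rw [sum_comm]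
  refine sum_le_sum fun N _ => ?_
  split_ifs
  · unfold st
    rw [v_sum3]
    refine (abs_sum_le_sum_abs _ _).trans (le_of_eq (sum_congr rfl fun i _ => abs_mul _ _))
  · simp

theorem T4_sum4 {κ : Type*} (s : Finset κ) (A B C : ℕ → X → ℝ) (r : κ → ℝ) (d : κ → X → ℝ) :
    T4 nv ud A B C (st (∑ i ∈ s, r i • d i)) ≤ ∑ i ∈ s, |r i| * T4 nv ud A B C (st (d i)) := by
  unfold T4
  simp_rw [mul_sum]
  rw [sum_comm]
  refine sum_le_sum fun N _ => ?_
  split_ifs
  · unfold st
    rw [v_sum4]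
    refine (abs_sum_le_sum_abs _ _).trans (le_of_eq (sum_congr rfl fun i _ => abs_mul _ _))
  · simp

theorem Rgn.up' (h : Rgn g gd L x ud) {k j : ℕ} (hkj : k ≤ j) (hj : j ≤ L) {y : X}
    (hy : ud k y) : ud j y := by
  induction j, hkj using Nat.le_induction with
  | base => exact hy
  | succ j hkj ih => exact h.up j (by omega) y (ih (by omega))

theorem Rgn.hyp (h : Rgn g gd L x ud) {F : X → ℝ} {e : ℝ} (he : 0 < e) (hF : En g ud F e) :
    Hyp g L e F ud where
  e_pos := he
  const k y z hz := h.const k y z hz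
  up k hk y hy := h.up k hk y hy
  energy k _ y hy := hF k y hy

end

end Vale.Agent.P141.H8
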