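import Vale.Agent.P141.H8.Step

/-!
# P141, line W, module REC (one-cell recursion), part 4: the rounds
-/

namespace Vale.Agent.P141.H8

open Finset
open Vale.Agent.P141.H315 Vale.Agent.P141.PL.H318 Vale.Agent.P141.H347 Vale.Agent.P141.H297

noncomputable section

open scoped Classical

variable {X ι α : Type*} {g : Grid X} {nv : NV g α} {gd : ℕ → X → Prop} {GP G1 : X → ℝ}
  {P : ℕ → X → ℝ} {Cg : ℝ}

/-- the start: two static functions -/
theorem fam_static {L : ℕ} {x : X} {ud : ℕ → X → Prop} (hU : Rgn g gd L x ud) {F G : X → ℝ}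
    {e : ℝ} (hF : En g ud F e) (hG : En g ud G e) :
    Fam2 g ud L (fun _ _ => L) (fun j _ => ![F, G] j) e 1 where
  lab := ⟨fun _ _ _ _ _ => rfl, fun _ hk _ => hk, fun _ _ _ => le_rfl, fun _ _ _ _ _ _ => rfl⟩
  en j k y hu := by
    fin_cases j
    · exact hF k y hu
    · exact hG k y hu
  pack k y hu := by
    have hk := (hU.bel k y hu).1
    unfold tops
    rw [sum_comm, one_mul]
    have h1 : ∀ z ∈ g.cube k y, (∑ i ∈ range (k + 1), if ud i z ∧ L = i then (1 : ℝ) else 0) ≤ 1 := by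
      intro z _
      rcases hk.lt_or_eq with h | h
      · rw [sum_eq_zero]
        · norm_num
        · intro i hi
          rw [mem_range] at hi
          exact if_neg fun h' => by omega
      · rw [sum_eq_single k]
        · split_ifs <;> norm_num
        · intro i hi hik
          exact if_neg fun h' => hik (by omega)
        · intro h'; exact absurd (mem_range.2 (Nat.lt_succ_self k)) h'
    refine (sum_le_sum h1).trans (le_of_eq ?_)
    rw [sum_const, nsmul_eq_mul, mul_one]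
    rfl

/-- **The rounds.** -/
theorem rounds {S : ℕ → Fin 2 → CSys g ι} {w : ∀ i j, LW (S i j)} (hC : 0 ≤ Cg) {B : ℝ}
    (hB : ∀ k x, cd g (k + 1) x ≤ B * cd g k x) {e e' p q r K : ℕ → ℝ} {n : ℕ}
    (hM : ∀ i < n, ∀ j, Mix (S i j) Cg) (he' : ∀ i < n, 0 < e' i) (hee : ∀ i < n, e' i ≤ e i)
    (hes : ∀ i < n, e (i + 1) = K1 B Cg * e' i) (hK0 : 0 ≤ K 0)
    (hKs : ∀ i < n, K (i + 1) = (K i + 1) * K2 B (e i) (e' i))
    (hp : ∀ i < n, 0 ≤ p i) (hq : ∀ i < n, 0 ≤ q i) (hr : ∀ i < n, 0 ≤ r i)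
    (hR : ∀ i < n, Rnd nv gd GP G1 P (S i) (w i) (K1 B Cg * e i) Cg (p i) (q i) (r i))
    {L : ℕ} {x : X} {ud : ℕ → X → Prop} (hU : Rgn g gd L x ud) (hx : ud L x)
    {t : ℕ → X → ℕ} {F : Fin 2 → ℕ → X → ℝ} (hF : Fam2 g ud L t F (e 0) (K 0)) :
    ∃ (t' : ℕ → X → ℕ) (F' : Fin 2 → ℕ → X → ℝ), Fam2 g ud L t' F' (e n) (K n) ∧
      T4 nv ud (st GP) (st G1) (mv t (F 0)) (mv t (F 1)) ≤
        (∑ i ∈ range n, (32 * e i * p i + 2 * (q i + r i)) * K (i + 1)) * cd g L x +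
        T4 nv ud (st GP) (st G1) (mv t' (F' 0)) (mv t' (F' 1)) := by
  have hB0 : 0 ≤ B := by
    have h1 := hB L x
    have h2 := H347.cd_pos g L x
    have h3 := H347.cd_pos g (L + 1) x
    by_contra hn
    push Not at hn
    nlinarith
  have key : ∀ m, m ≤ n → 0 ≤ K m ∧ ∃ (t' : ℕ → X → ℕ) (F' : Fin 2 → ℕ → X → ℝ),
      Fam2 g ud L t' F' (e m) (K m) ∧
      T4 nv ud (st GP) (st G1) (mv t (F 0)) (mv t (F 1)) ≤
        (∑ i ∈ range m, (32 * e i * p i + 2 * (q i + r i)) * K (i + 1)) * cd g L x +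
        T4 nv ud (st GP) (st G1) (mv t' (F' 0)) (mv t' (F' 1)) := by
    intro m
    induction m with
    | zero => intro _; exact ⟨hK0, t, F, hF, by simp⟩
    | succ m ih =>
      intro hm
      obtain ⟨k0, t1, F1, h1, h2⟩ := ih (by omega)
      have hmn : m < n := hm
      have h3 : 0 ≤ K2 B (e m) (e' m) := by
        have := he' m hmn
        have := hee m hmn
        have : 0 ≤ e m / e' m := div_nonneg (by linarith) (by linarith)
        unfold K2; positivity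
      obtain ⟨t2, F2, h4, h5⟩ := round (hM m hmn) hC hB (he' m hmn) (hee m hmn) (hp m hmn)
        (hq m hmn) (hr m hmn) (hR m hmn) hU hx k0 h1
      rw [← hes m hmn, ← hKs m hmn] at h4
      rw [← hKs m hmn] at h5
      refine ⟨by rw [hKs m hmn]; positivity, t2, F2, h4, ?_⟩
      rw [sum_range_succ, add_mul]
      linarith
  exact (key n le_rfl).2

/-- **The recursion for two static functions.** -/
theorem rounds_static {S : ℕ → Fin 2 → CSys g ι} {w : ∀ i j, LW (S i j)} (hC : 0 ≤ Cg) {B : ℝ}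
    (hB : ∀ k x, cd g (k + 1) x ≤ B * cd g k x) {e e' p q r K : ℕ → ℝ} {n : ℕ}
    (hM : ∀ i < n, ∀ j, Mix (S i j) Cg) (he' : ∀ i < n, 0 < e' i) (hee : ∀ i < n, e' i ≤ e i)
    (hes : ∀ i < n, e (i + 1) = K1 B Cg * e' i) (hK0 : K 0 = 1)
    (hKs : ∀ i < n, K (i + 1) = (K i + 1) * K2 B (e i) (e' i))
    (hp : ∀ i < n, 0 ≤ p i) (hq : ∀ i < n, 0 ≤ q i) (hr : ∀ i < n, 0 ≤ r i)
    (hR : ∀ i < n, Rnd nv gd GP G1 P (S i) (w i) (K1 B Cg * e i) Cg (p i) (q i) (r i))
    {L : ℕ} {x : X} {ud : ℕ → X → Prop} (hU : Rgn g gd L x ud) (hx : ud L x)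
    {F G : X → ℝ} (hF : En g ud F (e 0)) (hG : En g ud G (e 0)) :
    ∃ (t' : ℕ → X → ℕ) (F' : Fin 2 → ℕ → X → ℝ), Fam2 g ud L t' F' (e n) (K n) ∧
      T4 nv ud (st GP) (st G1) (st F) (st G) ≤
        (∑ i ∈ range n, (32 * e i * p i + 2 * (q i + r i)) * K (i + 1)) * cd g L x +
        T4 nv ud (st GP) (st G1) (mv t' (F' 0)) (mv t' (F' 1)) := by
  have h0 : Fam2 g ud L (fun _ _ => L) (fun j _ => ![F, G] j) (e 0) (K 0) := by
    rw [hK0]; exact fam_static hU hF hG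
  exact rounds hC hB hM he' hee hes (by rw [hK0]; norm_num) hKs hp hq hr hR hU hx h0

end

end Vale.Agent.P141.H8
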